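import Vale.Agent.P101.KR.Ultra
import Vale.Agent.P101.KR.DropAlg

/-!
# P101: the bridge from maps into `F_ω(A)` to `A ≅ A ⊗ 𝒵`

No tensor product is built: the conclusion is about every C*-algebra generated by commuting copies
of `A` and `D` (the copy of `A` injective); the minimal tensor product is one of them.
-/

namespace Vale.Agent.P101.Bridge

open Vale.Agent.P101.KR

/-- Two commuting unital copies of `D` in any C*-algebra are approximately unitarily equivalent
(the approximately inner half-flip, for nuclear `D` the usual one on the minimal tensor square). -/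
def HasHalfFlip (D : Type) [CStarAlgebra D] : Prop :=
  ∀ (E : Type) [CStarAlgebra E] (α β : D →⋆ₐ[ℂ] E), (∀ a b, Commute (α a) (β b)) →
    ∀ (G : Finset D) (ε : ℝ), 0 < ε →
      ∃ u : unitary E, ∀ d ∈ G, ‖(u : E) * α d * star (u : E) - β d‖ ≤ ε

/-- `C` is generated by commuting copies of `A` and `D`, the first injective. -/
structure IsTensorCompletion {A D C : Type} [CStarAlgebra A] [CStarAlgebra D] [CStarAlgebra C]
    (ιA : A →⋆ₐ[ℂ] C) (ιD : D →⋆ₐ[ℂ] C) : Prop where
  injective : Function.Injective ιA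
  commute : ∀ a d, Commute (ιA a) (ιD d)
  generates : Cl (Set.range ιA ∪ Set.range ιD) = ⊤

/-- The Jiang-Su algebra, by two properties that determine it: half-flip, and every finite set is
approximately contained in a unital copy of a dimension drop algebra `Z_{n,n+1}`, `n ≥ 2`. -/
structure IsJiangSu (D : Type) [CStarAlgebra D] : Prop where
  separable : TopologicalSpace.SeparableSpace D
  halfFlip : HasHalfFlip D
  locallyDrop : ∀ (G : Finset D) (ε : ℝ), 0 < ε → ∃ (n : ℕ) (_ : NeZero n), 2 ≤ n ∧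
    ∃ ι : dropAlg n →⋆ₐ[ℂ] D, Function.Injective ι ∧ ∀ x ∈ G, ∃ y, ‖x - ι y‖ ≤ ε

/-- Elliott's approximate intertwining for one injective map. -/
def IntertwineStatement : Prop :=
  ∀ (A C : Type) [CStarAlgebra A] [CStarAlgebra C] [TopologicalSpace.SeparableSpace A]
    [TopologicalSpace.SeparableSpace C] (φ : A →⋆ₐ[ℂ] C), Function.Injective φ →
    (∀ (F : Finset A) (G : Finset C) (ε : ℝ), 0 < ε → ∃ z : unitary C,
      (∀ a ∈ F, ‖(z : C) * φ a - φ a * z‖ ≤ ε) ∧
      ∀ c ∈ G, ∃ a, ‖star (z : C) * c * z - φ a‖ ≤ ε) →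
    Nonempty (A ≃⋆ₐ[ℂ] C)

/-- Unitaries of an ultrapower lift to unitaries. -/
def UnitaryLiftStatement : Prop :=
  ∀ (C : Type) [CStarAlgebra C] (ω : Ultrafilter ℕ) (u : unitary (AOmega C ω)),
    ∃ U : BoundedContinuousFunction ℕ C, (∀ k, U k ∈ unitary C) ∧ cls ω U = (u : AOmega C ω)

/-- A central unital map from `D` makes `A` absorb `D`. -/
def AbsorbStatement : Prop :=
  ∀ (A D C : Type) [CStarAlgebra A] [CStarAlgebra D] [CStarAlgebra C]
    [TopologicalSpace.SeparableSpace A] [TopologicalSpace.SeparableSpace D]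
    (ω : Ultrafilter ℕ), (ω : Filter ℕ) ≤ Filter.cofinite → HasHalfFlip D →
    Nonempty (D →⋆ₐ[ℂ] CentralAlgebra ω A) →
    ∀ (ιA : A →⋆ₐ[ℂ] C) (ιD : D →⋆ₐ[ℂ] C), IsTensorCompletion ιA ιD → Nonempty (A ≃⋆ₐ[ℂ] C)

/-- Countable saturation: local maps into `F_ω(A)` give one map. -/
def LocalStatement : Prop :=
  ∀ (A D : Type) [CStarAlgebra A] [CStarAlgebra D] [TopologicalSpace.SeparableSpace A]
    [TopologicalSpace.SeparableSpace D] (ω : Ultrafilter ℕ), (ω : Filter ℕ) ≤ Filter.cofinite →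
    (∀ (G : Finset D) (ε : ℝ), 0 < ε → ∃ (S : StarSubalgebra ℂ D),
      IsClosed (S : Set D) ∧ Nonempty (S →⋆ₐ[ℂ] CentralAlgebra ω A) ∧
      ∀ x ∈ G, ∃ y ∈ S, ‖x - y‖ ≤ ε) →
    Nonempty (D →⋆ₐ[ℂ] CentralAlgebra ω A)

/-- Dimension drop data in every size, from the core. -/
def AllDropsStatement : Prop :=
  ∀ (F : Type) [CStarAlgebra F], HasCopies F → NoCharacter F →
    ∀ (n : ℕ) [NeZero n], 2 ≤ n → Nonempty (DropDataN n F)

/-- The answer to Q1. -/
def StableStatement : Prop :=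
  ∀ (A : Type) [CStarAlgebra A] [TopologicalSpace.SeparableSpace A] [Nontrivial A]
    (ω : Ultrafilter ℕ), (ω : Filter ℕ) ≤ Filter.cofinite →
    NoCharacter (CentralAlgebra ω A) →
    ∀ (D : Type) [CStarAlgebra D], IsJiangSu D →
      ∀ (C : Type) [CStarAlgebra C] (ιA : A →⋆ₐ[ℂ] C) (ιD : D →⋆ₐ[ℂ] C),
        IsTensorCompletion ιA ιD → Nonempty (A ≃⋆ₐ[ℂ] C)

end Vale.Agent.P101.Bridge
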