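import Mathlib

/-!
# P101: the notions in the final statement
-/

open scoped unitInterval

namespace Vale.Agent.P101.Bridge

/-- Two commuting unital copies of `D` in any C*-algebra are approximately unitarily equivalent. -/
def HasFlip (D : Type) [CStarAlgebra D] : Prop :=
  ∀ (E : Type) [CStarAlgebra E] (α β : D →⋆ₐ[ℂ] E), (∀ a b, α a * β b = β b * α a) →
    ∀ (G : Finset D) (ε : ℝ), 0 < ε →
      ∃ u : E, star u * u = 1 ∧ u * star u = 1 ∧ ∀ d ∈ G, ‖u * α d * star u - β d‖ ≤ ε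

/-- `Z_{n,n+1}` as a set of paths in `M_{n+1} ⊗ Mₙ`: continuous, starting in `1 ⊗ Mₙ` and ending
in `M_{n+1} ⊗ 1`. -/
def dropSet (n : ℕ) : Set (I → Matrix (Option (Fin n) × Fin n) (Option (Fin n) × Fin n) ℂ) :=
  {f | Continuous f ∧
    (∃ x : Matrix (Fin n) (Fin n) ℂ, ∀ p q, f 0 p q = if p.1 = q.1 then x p.2 q.2 else 0) ∧
    ∃ y : Matrix (Option (Fin n)) (Option (Fin n)) ℂ,
      ∀ p q, f 1 p q = if p.2 = q.2 then y p.1 q.1 else 0}

/-- The properties of the Jiang-Su algebra that are used: separable, half-flip, and every finite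
set is approximately in a unital copy of some `Z_{n,n+1}`, `n ≥ 2`. -/
def IsZ (D : Type) [CStarAlgebra D] : Prop :=
  TopologicalSpace.SeparableSpace D ∧ HasFlip D ∧
    ∀ (G : Finset D) (ε : ℝ), 0 < ε → ∃ n : ℕ, 2 ≤ n ∧
      ∃ (E : Type) (_ : CStarAlgebra E)
        (e : E →⋆ₐ[ℂ] (I → Matrix (Option (Fin n) × Fin n) (Option (Fin n) × Fin n) ℂ))
        (ι : E →⋆ₐ[ℂ] D), Function.Injective e ∧ Set.range e = dropSet n ∧
        Function.Injective ι ∧ ∀ x ∈ G, ∃ y, ‖x - ι y‖ ≤ ε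

/-- `C` is generated by commuting unital copies of `A` and `D`, the first injective. -/
def IsTensorGen {A D C : Type} [CStarAlgebra A] [CStarAlgebra D] [CStarAlgebra C]
    (ιA : A →⋆ₐ[ℂ] C) (ιD : D →⋆ₐ[ℂ] C) : Prop :=
  Function.Injective ιA ∧ (∀ a d, ιA a * ιD d = ιD d * ιA a) ∧
    Dense (StarAlgebra.adjoin ℂ (Set.range ιA ∪ Set.range ιD) : Set C)

end Vale.Agent.P101.Bridge
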