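import Vale.Agent.P101.Bridge.Final
import Vale.Agent.P101.Bridge.StatementDefs

/-!
# P101: translation of the final statement
-/

open TopologicalSpace
open scoped unitInterval BoundedContinuousFunction ComplexOrder CStarAlgebra

namespace Vale.Agent.P101.Bridge

open Vale.Agent.P101.KR

lemma isTensorGen_iff {A D C : Type} [CStarAlgebra A] [CStarAlgebra D] [CStarAlgebra C]
    (ιA : A →⋆ₐ[ℂ] C) (ιD : D →⋆ₐ[ℂ] C) : IsTensorGen ιA ιD ↔ IsTensorCompletion ιA ιD := by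
  have key : Dense (StarAlgebra.adjoin ℂ (Set.range ιA ∪ Set.range ιD) : Set C) ↔
      Cl (Set.range ιA ∪ Set.range ιD) = ⊤ := by
    rw [dense_iff_closure_eq, Cl]
    refine Iff.trans ?_ SetLike.coe_set_eq
    rw [StarSubalgebra.coe_top, StarSubalgebra.topologicalClosure_coe]
  exact ⟨fun h => ⟨h.1, h.2.1, key.1 h.2.2⟩, fun h => ⟨h.1, h.2, key.2 h.3⟩⟩

lemma isJiangSu_of_isZ {D : Type} [CStarAlgebra D] (h : IsZ D) : IsJiangSu D := by
  obtain ⟨hsep, hflip, hloc⟩ := h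
  refine ⟨hsep, fun E _ α β hc G ε hε => ?_, fun G ε hε => ?_⟩
  · obtain ⟨u, hu, hu', hd⟩ := hflip E α β hc G ε hε
    exact ⟨⟨u, Unitary.mem_iff.2 ⟨hu, hu'⟩⟩, hd⟩
  · obtain ⟨n, hn, E, _, e, ι, he, hran, hι, hG⟩ := hloc G ε hε
    haveI : NeZero n := ⟨by omega⟩
    refine ⟨n, inferInstance, hn, ?_⟩
    let J := Option (Fin n) × Fin n
    let φ : dropAlg n →⋆ₐ[ℂ] (I → Matrix J J ℂ) :=
      { toFun := fun f t => CStarMatrix.ofMatrix.symm ((f : I →ᵇ DropFibre n) t)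
        map_one' := rfl
        map_mul' := fun _ _ => rfl
        map_zero' := rfl
        map_add' := fun _ _ => rfl
        commutes' := fun _ => rfl
        map_star' := fun _ => rfl }
    have hφ : Function.Injective φ := fun f g hfg => Subtype.ext
      (BoundedContinuousFunction.ext fun t => congrFun hfg t)
    have hmem : ∀ f, φ f ∈ Set.range e := fun f => by
      rw [hran]
      obtain ⟨⟨x, hx⟩, y, hy⟩ := f.2
      refine ⟨(f : I →ᵇ DropFibre n).continuous, ⟨x, fun p q => ?_⟩, y, fun p q => ?_⟩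
      · exact congrFun (congrFun hx p) q
      · exact congrFun (congrFun hy p) q
    have hsurj : ∀ z, ∃ f, φ f = e z := fun z => by
      obtain ⟨hc, ⟨x, hx⟩, y, hy⟩ := hran ▸ Set.mem_range_self (f := e) z
      let g : I →ᵇ DropFibre n := BoundedContinuousFunction.mkOfCompact ⟨fun t => e z t, hc⟩
      exact ⟨⟨g, ⟨x, funext fun p => funext fun q => hx p q⟩,
        ⟨y, funext fun p => funext fun q => hy p q⟩⟩, rfl⟩
    let g : dropAlg n →⋆ₐ[ℂ] E :=
      (StarAlgEquiv.ofInjective e he).symm.toStarAlgHom.comp (φ.codRestrict e.range hmem)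
    have hg : ∀ f, e (g f) = φ f := fun f =>
      congrArg Subtype.val ((StarAlgEquiv.ofInjective e he).apply_symm_apply _)
    refine ⟨ι.comp g, hι.comp fun f f' hff => hφ ?_, fun x hx => ?_⟩
    · exact (hg f).symm.trans ((congrArg e hff).trans (hg f'))
    · obtain ⟨y, hy⟩ := hG x hx
      obtain ⟨f, hf⟩ := hsurj y
      exact ⟨f, by rwa [StarAlgHom.comp_apply, he ((hg f).trans hf)]⟩

/-- The answer with the elementary notions. -/
theorem answer' (A : Type) [CStarAlgebra A] [SeparableSpace A] [Nontrivial A] (ω : Ultrafilter ℕ)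
    (hω : (ω : Filter ℕ) ≤ Filter.cofinite) :
    (¬ Seq.HasCharacter A ω → ∀ (D : Type) [CStarAlgebra D], IsZ D →
      (∃ (C : Type) (_ : CStarAlgebra C) (ιA : A →⋆ₐ[ℂ] C) (ιD : D →⋆ₐ[ℂ] C),
        IsTensorGen ιA ιD) ∧
      ∀ (C : Type) [CStarAlgebra C] (ιA : A →⋆ₐ[ℂ] C) (ιD : D →⋆ₐ[ℂ] C),
        IsTensorGen ιA ιD → Nonempty (A ≃⋆ₐ[ℂ] C)) ∧
    (¬ Seq.HasCharacter A ω ↔ ∀ n, 2 ≤ n → Seq.HasDropRelations A ω n) := by
  refine ⟨fun h D _ hD => ?_, (answer A ω hω).2⟩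
  obtain ⟨hex, hall⟩ := (answer A ω hω).1 h D (isJiangSu_of_isZ hD)
  obtain ⟨C, i, ιA, ιD, hT⟩ := hex
  exact ⟨⟨C, i, ιA, ιD, (isTensorGen_iff ιA ιD).2 hT⟩,
    fun C' _ ιA' ιD' hT' => hall C' ιA' ιD' ((isTensorGen_iff ιA' ιD').1 hT')⟩

end Vale.Agent.P101.Bridge
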