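import Vale.Agent.P101.Bridge.Intertwine

/-!
# P101: a central map from an algebra with half-flip gives absorption
-/

namespace Vale.Agent.P101.Bridge

open Filter Topology Vale.Agent.P101.KR TopologicalSpace BoundedContinuousFunction

variable {A C D : Type} [CStarAlgebra A] [CStarAlgebra C] [CStarAlgebra D]

theorem starHom_continuous (f : A →⋆ₐ[ℂ] C) : Continuous f :=
  AddMonoidHomClass.continuous_of_bound f 1 fun y => by
    simpa using NonUnitalStarAlgHom.norm_apply_le f y

theorem unitary_lift_of : UnitaryLiftStatement := by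
  intro C _ ω u
  classical
  let _ : PartialOrder C := CStarAlgebra.spectralOrder C
  have : StarOrderedRing C := CStarAlgebra.spectralOrderedRing C
  obtain ⟨y, hy⟩ := cls_surjective (u : AOmega C ω)
  have h1 : Tendsto (fun k => ‖star (y k) * y k - 1‖) (ω : Filter ℕ) (𝓝 0) := by
    have e : cls ω (star y * y) = cls ω 1 := by
      rw [map_mul, map_star, map_one, hy, Unitary.coe_star_mul_self]
    exact cls_eq_iff.1 e
  have h2 : Tendsto (fun k => ‖y k * star (y k) - 1‖) (ω : Filter ℕ) (𝓝 0) := by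
    have e : cls ω (y * star y) = cls ω 1 := by
      rw [map_mul, map_star, map_one, hy]
      exact Unitary.mul_star_self_of_mem u.2
    exact cls_eq_iff.1 e
  let f : ℝ → ℝ := fun t => (Real.sqrt t)⁻¹
  let P : ℕ → Prop := fun k => ‖star (y k) * y k - 1‖ < 1 / 2 ∧ ‖y k * star (y k) - 1‖ < 1 / 2
  have key : ∀ k, P k → y k * cfc f (star (y k) * y k) ∈ unitary C ∧
      ‖cfc f (star (y k) * y k) - 1‖ ≤ 2 * ‖star (y k) * y k - 1‖ := by
    intro k hk
    set a := star (y k) * y k with ha
    have hsa : IsSelfAdjoint a := IsSelfAdjoint.star_mul_self _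
    have hspec : ∀ t ∈ spectrum ℝ a, |t - 1| ≤ ‖a - 1‖ := by
      intro t ht
      have := norm_apply_le_norm_cfc (fun t : ℝ => t - 1) a ht
      rwa [cfc_sub (fun t : ℝ => t) (fun _ => 1) a, cfc_id' ℝ a, cfc_const_one ℝ a,
        Real.norm_eq_abs] at this
    have hpos : ∀ t ∈ spectrum ℝ a, 1 / 2 < t := fun t ht => by
      have := abs_le.1 (hspec t ht)
      linarith [hk.1]
    have hf : ContinuousOn f (spectrum ℝ a) :=
      Real.continuous_sqrt.continuousOn.inv₀ fun t ht =>
        (Real.sqrt_pos.2 (by linarith [hpos t ht])).ne'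
    have hw : IsSelfAdjoint (cfc f a) := cfc_predicate f a
    have h1 : star (y k * cfc f a) * (y k * cfc f a) = 1 := by
      calc star (y k * cfc f a) * (y k * cfc f a)
          = cfc f a * cfc (fun t : ℝ => t) a * cfc f a := by
            rw [star_mul, hw.star_eq, cfc_id' ℝ a, ha]
            noncomm_ring
        _ = cfc (fun t => f t * t * f t) a := by
            rw [← cfc_mul f (fun t => t) a, ← cfc_mul (fun t => f t * t) f a]
        _ = cfc (fun _ : ℝ => (1 : ℝ)) a := cfc_congr fun t ht => by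
            have ht0 : 0 < t := by linarith [hpos t ht]
            have := Real.mul_self_sqrt ht0.le
            have := (Real.sqrt_pos.2 ht0).ne'
            simp only [f]
            field_simp
            linarith
        _ = 1 := cfc_const_one ℝ a
    have hua : IsUnit a := by
      have := isUnit_one_sub_of_norm_lt_one (x := 1 - a) (by rw [norm_sub_rev]; linarith [hk.1])
      simpa using this
    have hub : IsUnit (y k * star (y k)) := by
      have := isUnit_one_sub_of_norm_lt_one (x := 1 - y k * star (y k))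
        (by rw [norm_sub_rev]; linarith [hk.2])
      simpa using this
    have hyu : IsUnit (y k) := by
      obtain ⟨p, hp⟩ := hua.exists_left_inv
      obtain ⟨q, hq⟩ := hub.exists_right_inv
      exact isUnit_iff_exists_and_exists.2 ⟨⟨star (y k) * q, by rw [← mul_assoc]; exact hq⟩,
        ⟨p * star (y k), by rw [mul_assoc, ← ha]; exact hp⟩⟩
    have hwu : IsUnit (cfc f a) := (isUnit_cfc_iff f a).2 fun t ht =>
      inv_ne_zero (Real.sqrt_pos.2 (by linarith [hpos t ht])).ne'
    refine ⟨⟨h1, ?_⟩, ?_⟩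
    · obtain ⟨v, hv⟩ := hyu.mul hwu
      rw [← hv] at h1 ⊢
      rw [← Units.mul_inv v]
      congr 1
      calc star (v : C) = star (v : C) * v * ↑v⁻¹ := by rw [mul_assoc, Units.mul_inv, mul_one]
        _ = _ := by rw [h1, one_mul]
    · rw [← cfc_const_one ℝ a, ← cfc_sub f (fun _ => 1) a, cfc_const_one ℝ a]
      refine norm_cfc_le (by positivity) fun t ht => ?_
      have ht0 : 1 / 2 < t := hpos t ht
      have hs : (7 : ℝ) / 10 < Real.sqrt t := Real.lt_sqrt_of_sq_lt (by nlinarith)
      have hs2 := Real.mul_self_sqrt (show (0 : ℝ) ≤ t by linarith)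
      have hb := hspec t ht
      rw [Real.norm_eq_abs, show f t - 1 = (1 - t) / (Real.sqrt t * (1 + Real.sqrt t)) by
        simp only [f]; field_simp; nlinarith, abs_div, abs_of_pos (show
          0 < Real.sqrt t * (1 + Real.sqrt t) by positivity), div_le_iff₀ (by positivity), abs_sub_comm]
      nlinarith [norm_nonneg (a - 1), abs_nonneg (t - 1),
        mul_le_mul hs.le (show (17 : ℝ) / 10 ≤ 1 + Real.sqrt t by linarith) (by norm_num) (by positivity)]
  set V : ℕ → C := fun k => if P k then y k * cfc f (star (y k) * y k) else 1 with hV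
  have hVu : ∀ k, V k ∈ unitary C := fun k => by
    simp only [hV]
    split_ifs with h
    · exact (key k h).1
    · exact one_mem _
  have hVn : ∀ k, ‖V k‖ ≤ 1 := fun k => by
    rcases subsingleton_or_nontrivial C with hC | hC
    · simp [Subsingleton.elim (V k) 0]
    · exact le_of_eq (CStarRing.norm_of_mem_unitary (hVu k))
  refine ⟨BoundedContinuousFunction.ofNormedAddCommGroup V continuous_of_discreteTopology 1 hVn,
    hVu, ?_⟩
  rw [← hy, cls_eq_iff]
  have hP : ∀ᶠ k in (ω : Filter ℕ), P k :=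
    (h1.eventually (gt_mem_nhds (by norm_num))).and (h2.eventually (gt_mem_nhds (by norm_num)))
  have h3 : Tendsto (fun k => ‖y‖ * (2 * ‖star (y k) * y k - 1‖)) (ω : Filter ℕ) (𝓝 0) := by
    simpa using (h1.const_mul 2).const_mul ‖y‖
  refine squeeze_zero' (Eventually.of_forall fun _ => norm_nonneg _) ?_ h3
  filter_upwards [hP] with k hk
  show ‖V k - y k‖ ≤ _
  simp only [hV, if_pos hk]
  rw [show y k * cfc f (star (y k) * y k) - y k = y k * (cfc f (star (y k) * y k) - 1) by noncomm_ring]
  exact (norm_mul_le _ _).trans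
    (mul_le_mul (y.norm_coe_le_norm k) (key k hk).2 (norm_nonneg _) (norm_nonneg _))

/-- An injective map induces one of ultrapowers. -/
theorem exists_mapOmega (ω : Ultrafilter ℕ) (ι : A →⋆ₐ[ℂ] C) (hι : Function.Injective ι) :
    ∃ g : AOmega A ω →⋆ₐ[ℂ] AOmega C ω, Isometry g ∧
      ∀ (x : ℕ →ᵇ A) (y : ℕ →ᵇ C), (∀ k, y k = ι (x k)) → g (cls ω x) = cls ω y := by
  have hn : ∀ a, ‖ι a‖ = ‖a‖ := NonUnitalStarAlgHom.norm_map ι hι
  let L : (ℕ →ᵇ A) → (ℕ →ᵇ C) := fun x =>
    BoundedContinuousFunction.ofNormedAddCommGroup (fun k => ι (x k)) continuous_of_discreteTopology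
      ‖x‖ fun k => (hn _).trans_le (x.norm_coe_le_norm k)
  let rep : AOmega A ω → ℕ →ᵇ A := Function.surjInv cls_surjective
  have hrep : ∀ z, cls ω (rep z) = z := Function.surjInv_eq cls_surjective
  have hwd : ∀ (x : ℕ →ᵇ A) (y : ℕ →ᵇ C), (∀ k, y k = ι (x k)) →
      cls ω (L (rep (cls ω x))) = cls ω y := by
    intro x y hxy
    rw [cls_eq_iff]
    have h := cls_eq_iff.1 (hrep (cls ω x))
    refine h.congr fun k => ?_
    show _ = ‖ι (rep (cls ω x) k) - y k‖
    rw [hxy, ← map_sub, hn]
  let g : AOmega A ω →⋆ₐ[ℂ] AOmega C ω :=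
    { toFun := fun z => cls ω (L (rep z))
      map_one' := by
        rw [← map_one (cls (A := A) ω), hwd 1 1 fun k => (map_one ι).symm, map_one]
      map_zero' := by
        rw [← map_zero (cls (A := A) ω), hwd 0 0 fun k => (map_zero ι).symm, map_zero]
      map_mul' := fun z w => by
        conv_lhs => rw [← hrep z, ← hrep w, ← map_mul]
        rw [hwd _ (L (rep z) * L (rep w)) fun k => (map_mul ι _ _).symm, map_mul]
      map_add' := fun z w => by
        conv_lhs => rw [← hrep z, ← hrep w, ← map_add]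
        rw [hwd _ (L (rep z) + L (rep w)) fun k => (map_add ι _ _).symm, map_add]
      commutes' := fun r => by
        rw [← AlgHomClass.commutes (cls (A := A) ω) r,
          hwd (algebraMap ℂ (ℕ →ᵇ A) r) (algebraMap ℂ (ℕ →ᵇ C) r) fun k => (AlgHomClass.commutes ι r).symm,
          AlgHomClass.commutes]
      map_star' := fun z => by
        conv_lhs => rw [← hrep z, ← map_star]
        rw [hwd _ (star (L (rep z))) fun k => (map_star ι _).symm, map_star] }
  refine ⟨g, AddMonoidHomClass.isometry_of_norm g fun z => ?_, hwd⟩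
  show ‖cls ω (L (rep z))‖ = ‖z‖
  conv_rhs => rw [← hrep z]
  rw [norm_cls, norm_cls]
  exact omegaNorm_eq ((tendsto_omegaNorm ω (rep z)).congr fun k => (hn _).symm)

/-- A completion of separable algebras is separable. -/
theorem separable_completion [SeparableSpace A] [SeparableSpace D] {ιA : A →⋆ₐ[ℂ] C}
    {ιD : D →⋆ₐ[ℂ] C} (h : IsTensorCompletion ιA ιD) : SeparableSpace C := by
  set L : Set C := Set.range (ιA ∘ denseSeq A) ∪ Set.range (ιD ∘ denseSeq D)
  have hL : L.Countable := (Set.countable_range _).union (Set.countable_range _)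
  have hsub : Cl (Set.range ιA ∪ Set.range ιD) ≤ Cl L := by
    refine StarSubalgebra.topologicalClosure_minimal (StarAlgebra.adjoin_le ?_) (isClosed_Cl L)
    rintro _ (⟨a, rfl⟩ | ⟨a, rfl⟩)
    · refine ((isClosed_Cl L).preimage (starHom_continuous ιA)).closure_subset_iff.2 ?_
        (denseRange_denseSeq A a)
      rintro _ ⟨i, rfl⟩
      exact StarSubalgebra.le_topologicalClosure _ (StarAlgebra.subset_adjoin ℂ _ (Or.inl ⟨i, rfl⟩))
    · refine ((isClosed_Cl L).preimage (starHom_continuous ιD)).closure_subset_iff.2 ?_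
        (denseRange_denseSeq D a)
      rintro _ ⟨i, rfl⟩
      exact StarSubalgebra.le_topologicalClosure _ (StarAlgebra.subset_adjoin ℂ _ (Or.inr ⟨i, rfl⟩))
  rw [h.generates] at hsub
  refine isSeparable_univ_iff.1 ((isSeparable_adjoin hL).closure.mono fun x _ => ?_)
  have := hsub (StarSubalgebra.mem_top (R := ℂ) (x := x))
  rw [← SetLike.mem_coe, Cl, StarSubalgebra.topologicalClosure_coe] at this
  exact this

theorem absorb_of : AbsorbStatement := by
  intro A D C _ _ _ _ _ ω hω hflip hψ ιA ιD hT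
  classical
  obtain ⟨ψ⟩ := hψ
  have := separable_completion hT
  obtain ⟨g, hg, hgc⟩ := exists_mapOmega ω ιA hT.injective
  let M : StarSubalgebra ℂ (AOmega C ω) :=
    StarSubalgebra.centralizer ℂ (Set.range ((emb ω).comp ιA))
  have hM : ∀ x, x ∈ M ↔ ∀ a, emb ω (ιA a) * x = x * emb ω (ιA a) := by
    intro x
    simp only [M, StarSubalgebra.mem_centralizer_iff]
    constructor
    · exact fun h a => (h _ ⟨a, rfl⟩).1
    · rintro h _ ⟨a, rfl⟩
      refine ⟨h a, ?_⟩
      rw [← map_star]
      exact h _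
  have hMc : IsClosed (M : Set (AOmega C ω)) := by
    have e : (M : Set (AOmega C ω)) = ⋂ a, {x | emb ω (ιA a) * x = x * emb ω (ιA a)} := by
      ext x
      simp [hM]
    rw [e]
    exact isClosed_iInter fun a =>
      isClosed_eq (continuous_const.fun_mul continuous_id) (continuous_id.fun_mul continuous_const)
  have : IsClosed (M : Set (AOmega C ω)) := hMc
  have hgemb : ∀ a, g (emb ω a) = emb ω (ιA a) := fun a => hgc _ _ fun k => rfl
  let αf : D →⋆ₐ[ℂ] AOmega C ω := g.comp ((central A ω).subtype.comp ψ)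
  let βf : D →⋆ₐ[ℂ] AOmega C ω := (emb ω).comp ιD
  have hαM : ∀ d, αf d ∈ M := fun d => (hM _).2 fun a => by
    show emb ω (ιA a) * g (ψ d).1 = g (ψ d).1 * emb ω (ιA a)
    rw [← hgemb, ← map_mul, ← map_mul, (mem_central.1 (ψ d).2) a]
  have hβM : ∀ d, βf d ∈ M := fun d => (hM _).2 fun a => by
    show emb ω (ιA a) * emb ω (ιD d) = emb ω (ιD d) * emb ω (ιA a)
    rw [← map_mul, ← map_mul, (hT.commute a d).eq]
  -- α and β commute
  have hcomm : ∀ a b, Commute (βf a) (αf b) := by
    intro a b
    obtain ⟨x, hx⟩ := cls_surjective ((ψ b).1 : AOmega A ω)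
    let y : ℕ →ᵇ C := BoundedContinuousFunction.ofNormedAddCommGroup (fun k => ιA (x k))
      continuous_of_discreteTopology ‖x‖ fun k =>
        ((NonUnitalStarAlgHom.norm_apply_le ιA (x k)).trans (x.norm_coe_le_norm k))
    have e : αf b = cls ω y := by
      show g (ψ b).1 = _
      rw [← hx]
      exact hgc x y fun k => rfl
    rw [e]
    show cls ω _ * cls ω y = cls ω y * cls ω _
    rw [← map_mul, ← map_mul, cls_eq_iff]
    refine tendsto_const_nhds.congr fun k => ?_
    show (0 : ℝ) = ‖ιD a * ιA (x k) - ιA (x k) * ιD a‖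
    rw [(hT.commute (x k) a).eq, sub_self, norm_zero]
  let α : D →⋆ₐ[ℂ] M := αf.codRestrict M hαM
  let β : D →⋆ₐ[ℂ] M := βf.codRestrict M hβM
  set d : ℕ → D := denseSeq D
  set a : ℕ → A := denseSeq A
  -- approximate unitaries, lifted
  have happ : ∀ k : ℕ, ∃ U : ℕ →ᵇ C, (∀ n, U n ∈ unitary C) ∧
      cls ω U ∈ M ∧ ∀ i ≤ k, ‖cls ω U * βf (d i) * star (cls ω U) - αf (d i)‖ ≤ 1 / ((k : ℝ) + 1) := by
    intro k
    obtain ⟨u, hu⟩ := hflip M β α (fun a b => Subtype.ext (hcomm a b))
      ((Finset.range (k + 1)).image d) (1 / ((k : ℝ) + 1)) (by positivity)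
    let u' : unitary (AOmega C ω) := ⟨((u : M) : AOmega C ω),
      ⟨congrArg Subtype.val (Unitary.coe_star_mul_self u), congrArg Subtype.val (Unitary.coe_mul_star_self u)⟩⟩
    obtain ⟨U, hU, hUc⟩ := unitary_lift_of C ω u'
    refine ⟨U, hU, hUc ▸ (u : M).2, fun i hi => ?_⟩
    rw [hUc]
    exact hu (d i) (Finset.mem_image_of_mem _ (Finset.mem_range.2 (by omega)))
  choose U hUu hUM hUd using happ
  choose P hP using fun i => cls_surjective (αf (d i))
  let X : ℕ → ℕ → Prop := fun k n => k ≤ n ∧ ∀ i ≤ k,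
    ‖ιA (a i) * U k n - U k n * ιA (a i)‖ < 2 / ((k : ℝ) + 1) ∧
    ‖U k n * ιD (d i) * star (U k n) - P i n‖ < 2 / ((k : ℝ) + 1)
  have hX : ∀ k, ∀ᶠ n in (ω : Filter ℕ), X k n := by
    intro k
    refine (eventually_fine hω k).and ((Set.finite_Iic k).eventually_all.2 fun i hi => ?_)
    have hk : (0 : ℝ) < 2 / ((k : ℝ) + 1) := by positivity
    refine Eventually.and ?_ ?_
    · have e : cls ω (BoundedContinuousFunction.const ℕ (ιA (a i)) * U k)
          = cls ω (U k * BoundedContinuousFunction.const ℕ (ιA (a i))) := by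
        rw [map_mul, map_mul]
        exact (hM _).1 (hUM k) (a i)
      exact (cls_eq_iff.1 e).eventually (gt_mem_nhds hk)
    · have h := hUd k i hi
      rw [← hP i] at h
      have h' : ‖cls ω (U k * BoundedContinuousFunction.const ℕ (ιD (d i)) * star (U k) - P i)‖
          ≤ 1 / ((k : ℝ) + 1) := by
        rw [map_sub, map_mul, map_mul, map_star]
        exact h
      refine (tendsto_omegaNorm ω _).eventually (gt_mem_nhds (lt_of_le_of_lt h' ?_))
      exact div_lt_div_of_pos_right (by norm_num) (by positivity)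
  -- diagonal
  let κ : ℕ → ℕ := fun n => Nat.findGreatest (fun k => X k n) n
  let W : ℕ → C := fun n => U (κ n) n
  have hWu : ∀ n, W n ∈ unitary C := fun n => hUu _ _
  have hWn : ∀ n, ‖W n‖ ≤ 1 := fun n => by
    rcases subsingleton_or_nontrivial C with hC | hC
    · simp [Subsingleton.elim (W n) 0]
    · exact le_of_eq (CStarRing.norm_of_mem_unitary (hWu n))
  let Wb : ℕ →ᵇ C :=
    BoundedContinuousFunction.ofNormedAddCommGroup W continuous_of_discreteTopology 1 hWn
  have hWX : ∀ k, ∀ᶠ n in (ω : Filter ℕ), k ≤ κ n ∧ X (κ n) n := fun k =>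
    (hX k).mono fun n hn => ⟨Nat.le_findGreatest hn.1 hn, Nat.findGreatest_spec (P := fun j => X j n) hn.1 hn⟩
  have hsmall : ∀ ε : ℝ, 0 < ε → ∀ᶠ k : ℕ in atTop, 2 / ((k : ℝ) + 1) < ε := fun ε hε => by
    have h := (tendsto_one_div_add_atTop_nhds_zero_nat (𝕜 := ℝ)).const_mul 2
    rw [mul_zero] at h
    exact (h.eventually (gt_mem_nhds hε)).mono fun k hk => by rwa [mul_one_div] at hk
  have hzero : ∀ (i : ℕ) (f : ℕ → ℝ), (∀ n, 0 ≤ f n) →
      (∀ n, i ≤ κ n → X (κ n) n → f n < 2 / ((κ n : ℝ) + 1)) →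
      Tendsto f (ω : Filter ℕ) (𝓝 0) := by
    intro i f hf0 hf
    refine Metric.tendsto_nhds.2 fun ε hε => ?_
    obtain ⟨k, hk, hki⟩ := ((hsmall ε hε).and (eventually_ge_atTop i)).exists
    filter_upwards [hWX k] with n hn
    rw [Real.dist_eq, sub_zero, abs_of_nonneg (hf0 n)]
    refine (hf n (hki.trans hn.1) hn.2).trans (lt_of_le_of_lt ?_ hk)
    gcongr
    exact hn.1
  set w := cls ω Wb with hw
  have hwA : ∀ x, emb ω (ιA x) * w = w * emb ω (ιA x) := by
    have hcl : IsClosed {x | emb ω (ιA x) * w = w * emb ω (ιA x)} := by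
      have := starHom_continuous ((emb ω).comp ιA)
      exact isClosed_eq (this.fun_mul continuous_const) (continuous_const.fun_mul this)
    refine fun x => hcl.closure_subset_iff.2 ?_ (denseRange_denseSeq A x)
    rintro _ ⟨i, rfl⟩
    show cls ω _ * cls ω Wb = cls ω Wb * cls ω _
    rw [← map_mul, ← map_mul, cls_eq_iff]
    exact hzero i _ (fun _ => norm_nonneg _) fun n hn hXn => (hXn.2 i hn).1
  have hwD : ∀ x, w * emb ω (ιD x) * star w = αf x := by
    have hcl : IsClosed {x | w * emb ω (ιD x) * star w = αf x} := by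
      have := starHom_continuous ((emb ω).comp ιD)
      exact isClosed_eq ((continuous_const.fun_mul this).fun_mul continuous_const) (starHom_continuous αf)
    refine fun x => hcl.closure_subset_iff.2 ?_ (denseRange_denseSeq D x)
    rintro _ ⟨i, rfl⟩
    show cls ω Wb * cls ω _ * star (cls ω Wb) = αf (d i)
    rw [← hP i, ← map_star, ← map_mul, ← map_mul, cls_eq_iff]
    exact hzero i _ (fun _ => norm_nonneg _) fun n hn hXn => (hXn.2 i hn).2
  have hwu : w ∈ unitary (AOmega C ω) := by
    constructor <;>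
    · rw [hw, ← map_star, ← map_mul, ← map_one (cls (A := C) ω)]
      refine congrArg _ (BoundedContinuousFunction.ext fun n => ?_)
      first
        | exact Unitary.star_mul_self_of_mem (hWu n)
        | exact Unitary.mul_star_self_of_mem (hWu n)
  -- everything is conjugated into `A_ω`
  let Φ : C →⋆ₐ[ℂ] AOmega C ω := (conjHom (⟨w, hwu⟩ : unitary (AOmega C ω))).comp (emb ω)
  have hall : ∀ c, Φ c ∈ g.range := by
    have hcl : IsClosed ((g.range.comap Φ : StarSubalgebra ℂ C) : Set C) := by
      show IsClosed (Φ ⁻¹' (g.range : Set (AOmega C ω)))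
      refine IsClosed.preimage (starHom_continuous Φ) ?_
      exact hg.isClosedEmbedding.isClosed_range
    have hgen : Cl (Set.range ιA ∪ Set.range ιD) ≤ g.range.comap Φ := by
      refine StarSubalgebra.topologicalClosure_minimal (StarAlgebra.adjoin_le ?_) hcl
      rintro _ (⟨x, rfl⟩ | ⟨x, rfl⟩)
      · refine ⟨emb ω x, ?_⟩
        show g (emb ω x) = w * emb ω (ιA x) * star w
        rw [hgemb, ← hwA, mul_assoc, (Unitary.mem_iff.1 hwu).2, mul_one]
      · exact ⟨(ψ x).1, (hwD x).symm⟩
    intro c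
    rw [hT.generates] at hgen
    exact hgen StarSubalgebra.mem_top
  refine intertwine_of A C ιA hT.injective fun F G ε hε => ?_
  have hev : ∀ᶠ n in (ω : Filter ℕ), (∀ x ∈ F, ‖ιA x * W n - W n * ιA x‖ < ε) ∧
      ∀ c ∈ G, ∃ b, ‖W n * c * star (W n) - ιA b‖ < ε := by
    refine ((Filter.eventually_all_finset _).2 fun x _ => ?_).and
      ((Filter.eventually_all_finset _).2 fun c _ => ?_)
    · have e : cls ω (BoundedContinuousFunction.const ℕ (ιA x) * Wb)
          = cls ω (Wb * BoundedContinuousFunction.const ℕ (ιA x)) := by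
        rw [map_mul, map_mul]
        exact hwA x
      exact (cls_eq_iff.1 e).eventually (gt_mem_nhds hε)
    · obtain ⟨z, hz⟩ := hall c
      obtain ⟨x, rfl⟩ := cls_surjective z
      let y : ℕ →ᵇ C := BoundedContinuousFunction.ofNormedAddCommGroup (fun k => ιA (x k))
        continuous_of_discreteTopology ‖x‖ fun k =>
          ((NonUnitalStarAlgHom.norm_apply_le ιA (x k)).trans (x.norm_coe_le_norm k))
      have hz' : cls ω (Wb * BoundedContinuousFunction.const ℕ c * star Wb) = cls ω y := by
        rw [← hgc x y fun k => rfl, map_mul, map_mul, map_star]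
        exact hz.symm
      exact ((cls_eq_iff.1 hz').eventually (gt_mem_nhds hε)).mono fun n hn => ⟨x n, hn⟩
  obtain ⟨n, hn1, hn2⟩ := hev.exists
  refine ⟨star (⟨W n, hWu n⟩ : unitary C), fun x hx => ?_, fun c hc => ?_⟩
  · have h1 : star (W n) * W n = 1 := Unitary.star_mul_self_of_mem (hWu n)
    have h2 : W n * star (W n) = 1 := Unitary.mul_star_self_of_mem (hWu n)
    have h3 := hn1 x hx
    show ‖star (W n) * ιA x - ιA x * star (W n)‖ ≤ ε
    rw [show star (W n) * ιA x - ιA x * star (W n)
      = star (W n) * (ιA x * W n - W n * ιA x) * star (W n) by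
        rw [mul_sub, sub_mul, ← mul_assoc (star (W n)) (ιA x), mul_assoc (star (W n) * ιA x), h2,
          mul_one, ← mul_assoc, h1, one_mul]]
    have hS := Unitary.star_mem (hWu n)
    rw [CStarRing.norm_mul_mem_unitary _ hS, CStarRing.norm_mem_unitary_mul _ hS]
    exact h3.le
  · obtain ⟨b, hb⟩ := hn2 c hc
    refine ⟨b, ?_⟩
    show ‖star (star (W n)) * c * star (W n) - ιA b‖ ≤ ε
    rw [star_star]
    exact hb.le

end Vale.Agent.P101.Bridge
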