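import Vale.Agent.P101.Bridge.Interfaces
import Vale.Agent.P101.KR.PowerMain
import Vale.Agent.P101.KR.Orth
import Vale.Agent.P101.KR.Glimm
import Vale.Agent.P101.KR.Seed

/-!
# P101: dimension drop data in every size
-/

namespace Vale.Agent.P101.Bridge

open Vale.Agent.P101.KR

variable {B : Type} [CStarAlgebra B]

/-- A seed for `M_N` restricts to one for `Mₙ`, `n ≤ N`. -/
theorem seedN_truncate {k n N : ℕ} [NeZero n] [NeZero N] (hn : n ≤ N) (σ : SeedN B k N) :
    Nonempty (SeedN B k n) := by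
  classical
  let _ : PartialOrder B := CStarAlgebra.spectralOrder B
  have : StarOrderedRing B := CStarAlgebra.spectralOrderedRing B
  let e : Fin n → Fin N := Fin.castLE hn
  let θ : Fin n → Fin n → B := fun a b => σ.θ (e a) (e b)
  set H := diagN σ.θ with hH
  have hθ := σ.orderZero
  have hcomm : ∀ a b, Commute H (σ.θ a b) := fun a b => by
    show H * σ.θ a b = σ.θ a b * H
    conv_rhs => rw [hH, diagN, Finset.mul_sum]
    simp only [hθ.mul_eq]
    rw [Finset.sum_ite_eq, if_pos (Finset.mem_univ b)]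
  have hinj : ∀ a b : Fin n, (e a = e b) ↔ a = b := fun a b =>
    (Fin.castLE_injective hn).eq_iff
  have hleft : ∀ a b, diagN θ * θ a b = H * θ a b := fun a b => by
    show (∑ c, σ.θ (e c) (e c)) * σ.θ (e a) (e b) = H * σ.θ (e a) (e b)
    rw [Finset.sum_mul]
    simp only [hθ.mul_eq, hinj]
    rw [Finset.sum_ite_eq', if_pos (Finset.mem_univ a)]
  have hright : ∀ a b, θ a b * diagN θ = H * θ a b := fun a b => by
    show σ.θ (e a) (e b) * (∑ c, σ.θ (e c) (e c)) = H * σ.θ (e a) (e b)
    rw [Finset.mul_sum]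
    simp only [hθ.mul_eq, hinj]
    rw [Finset.sum_ite_eq, if_pos (Finset.mem_univ b)]
  have hoz : OrderZeroN θ :=
    { star_eq := fun a b => hθ.star_eq _ _
      mul_eq := fun a b c d => by
        show σ.θ (e a) (e b) * σ.θ (e c) (e d) = _
        rw [hθ.mul_eq]
        simp only [hinj]
        split_ifs
        · exact (hleft a d).symm
        · rfl
      pos := fun a => hθ.pos _ }
  have hnn : ∀ a, (0 : B) ≤ σ.θ a a := fun a => by
    obtain ⟨c, hc⟩ := hθ.pos a
    rw [hc]
    exact star_mul_self_nonneg c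
  have hH0 : 0 ≤ H := Finset.sum_nonneg fun a _ => hnn a
  have hsplit : H - diagN θ = ∑ a ∈ Finset.univ \ Finset.univ.image e, σ.θ a a := by
    rw [hH, diagN, diagN, ← Finset.sum_sdiff (Finset.subset_univ (Finset.univ.image e)),
      Finset.sum_image (fun a _ b _ h => (hinj a b).1 h)]
    simp [θ]
  have hd : 0 ≤ H - diagN θ := hsplit ▸ Finset.sum_nonneg fun a _ => hnn a
  have hHd : Commute H (diagN θ) := Commute.sum_right _ _ _ fun a _ => hcomm _ _
  have hsq : diagN θ * diagN θ = H * diagN θ := by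
    conv_lhs => arg 2; rw [diagN]
    rw [Finset.mul_sum]
    simp only [hleft, ← Finset.mul_sum, ← diagN.eq_def]
  have hpos : 0 ≤ 1 - diagN θ * diagN θ := by
    have e1 : 1 - diagN θ * diagN θ = σ.s * σ.s + H * (H - diagN θ) := by
      rw [hsq, σ.mul_self_s, ← hH, mul_sub]; abel
    rw [e1]
    exact add_nonneg (IsSelfAdjoint.mul_self_nonneg σ.star_s)
      (((Commute.refl H).sub_right hHd).mul_nonneg hH0 hd)
  have hzc : ∀ a b, Commute (1 - diagN θ * diagN θ) (θ a b) := fun a b => by
    have h : Commute (diagN θ) (θ a b) := (hleft a b).trans (hright a b).symm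
    exact (Commute.one_left _).sub_left (h.mul_left h)
  exact ⟨
    { θ := θ
      s := CFC.sqrt (1 - diagN θ * diagN θ)
      x := σ.x
      orderZero := hoz
      star_s := (IsSelfAdjoint.of_nonneg (CFC.sqrt_nonneg _)).star_eq
      mul_self_s := CFC.sqrt_mul_sqrt_self _ hpos
      comm_s := fun a b => by
        rw [CFC.sqrt_eq_cfc]
        exact (hzc a b).cfc_nnreal _
      fix_x := fun c => by
        have h0 : e 0 = 0 := Fin.ext rfl
        show σ.θ (e 0) (e 0) * σ.x c = σ.x c
        rw [h0]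
        exact σ.fix_x c
      sum_x := σ.sum_x }⟩

theorem allDrops_of : AllDropsStatement := by
  intro F _ hF hchar n _ hn
  obtain ⟨s, hs, k, ⟨σ⟩⟩ := exists_seed orth_of glimm_of seed_of hF hchar
  obtain ⟨s', hs', κ, -⟩ := exists_generating hF hs (n + 1)
  obtain ⟨τ⟩ := seedN_of σ κ
  obtain ⟨τ'⟩ := seedN_truncate (n := n) (Nat.lt_two_pow_self.le.trans
    (Nat.pow_le_pow_right two_pos (Nat.le_succ n))) τ
  obtain ⟨κ'⟩ := hF s' hs' (k ^ (n + 1) * k ^ (n + 1) + 1)
  exact cover_ofN mergeN_of polar_of _ F _ _ hn τ' κ'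

end Vale.Agent.P101.Bridge
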