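import Vale.Agent.P101.Bridge.Interfaces

/-!
# P101: countable saturation of `F_ω(A)`

Local maps into the central sequence algebra, defined on subalgebras approximating every finite
set, give one map on the whole algebra. The proof is a diagonal sequence argument: the relations
(norm bounds, sums, products, stars, scalars, commutators with `A`) are countably many
inequalities between a dense sequence.
-/

namespace Vale.Agent.P101.Bridge

open Filter Topology BoundedContinuousFunction TopologicalSpace Vale.Agent.P101.KR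

noncomputable section

/-- The relations that make a map on a dense sequence extend to a central `*`-homomorphism. -/
inductive Rel
  | gen (i : ℕ)
  | diff (i j : ℕ)
  | add (i j l : ℕ)
  | mul (i j l : ℕ)
  | adj (i j : ℕ)
  | scal (i j : ℕ)
  | comm (i j : ℕ)
  deriving Encodable

section Eval

variable {B B' : Type*} [Ring B] [Algebra ℂ B] [StarRing B] [Ring B'] [Algebra ℂ B'] [StarRing B']

/-- The expression of a relation. -/
def Rel.eval (q : ℕ → ℂ) (x b : ℕ → B) : Rel → B
  | .gen i => x i
  | .diff i j => x i - x j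
  | .add i j l => x i + x j - x l
  | .mul i j l => x i * x j - x l
  | .adj i j => star (x i) - x j
  | .scal i j => x i - algebraMap ℂ B (q j)
  | .comm i j => b j * x i - x i * b j

theorem Rel.eval_map (f : B →⋆ₐ[ℂ] B') (q : ℕ → ℂ) (x b : ℕ → B) (r : Rel) :
    f (r.eval q x b) = r.eval q (fun i => f (x i)) (fun j => f (b j)) := by
  cases r <;> simp [Rel.eval, map_star, AlgHomClass.commutes]

theorem Rel.eval_eq_zero_right (q : ℕ → ℂ) (x b : ℕ → B) (h : ∀ i j, b j * x i = x i * b j)
    (r : Rel) : r.eval q x b = r.eval q x 0 := by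
  cases r <;> simp [Rel.eval, h]

end Eval

theorem tendsto_eval {D : Type*} [CStarAlgebra D] {ι : Type*} {l : Filter ι} (q : ℕ → ℂ)
    {y : ι → ℕ → D} {x : ℕ → D} (h : ∀ i, Tendsto (fun k => y k i) l (𝓝 (x i))) (r : Rel) :
    Tendsto (fun k => r.eval q (y k) 0) l (𝓝 (r.eval q x 0)) := by
  cases r with
  | gen i => exact h i
  | diff i j => exact (h i).sub (h j)
  | add i j l => exact ((h i).add (h j)).sub (h l)
  | mul i j l => exact ((h i).mul (h j)).sub (h l)
  | adj i j => exact (h i).star.sub (h j)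
  | scal i j => exact (h i).sub tendsto_const_nhds
  | comm i j =>
    simp only [Rel.eval, Pi.zero_apply, zero_mul, mul_zero, sub_zero]
    exact tendsto_const_nhds

/-- A diagonal choice along an ultrafilter for countably many inequalities. -/
theorem exists_diag {ι : Type*} [Encodable ι] {ω : Ultrafilter ℕ}
    (hω : (ω : Filter ℕ) ≤ cofinite) (e : ι → ℕ → ℕ → ℝ) (c : ι → ℝ)
    (h : ∀ j, ∀ ε : ℝ, 0 < ε → ∀ᶠ k in atTop, ∀ᶠ n in (ω : Filter ℕ), e j k n < c j + ε) :
    ∃ κ : ℕ → ℕ, ∀ j, ∀ ε : ℝ, 0 < ε → ∀ᶠ n in (ω : Filter ℕ), e j (κ n) n < c j + ε := by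
  classical
  have hK : ∀ j, ∀ m : ℕ, ∃ K, ∀ k ≥ K, ∀ᶠ n in (ω : Filter ℕ), e j k n < c j + 1 / (m + 1 : ℝ) :=
    fun j m => eventually_atTop.1 (h j _ (by positivity))
  choose K hK using hK
  set W : ℕ → ℕ → Prop := fun k n => k ≤ n ∧ ∀ j, Encodable.encode j ≤ k → ∀ m ≤ k, K j m ≤ k →
    e j k n < c j + 1 / (m + 1 : ℝ) with hW
  have hWev : ∀ k, ∀ᶠ n in (ω : Filter ℕ), W k n := by
    intro k
    refine (eventually_fine hω k).and ?_
    have hfin : {j : ι | Encodable.encode j ≤ k}.Finite :=
      (Set.finite_Iic k).preimage Encodable.encode_injective.injOn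
    refine hfin.eventually_all.2 fun j _ => ?_
    refine (Set.finite_Iic k).eventually_all.2 fun m _ => ?_
    by_cases hm : K j m ≤ k
    · exact (hK j m k hm).mono fun n hn _ => hn
    · exact Eventually.of_forall fun n hle => absurd hle hm
  refine ⟨fun n => Nat.findGreatest (fun k => W k n) n, fun j ε hε => ?_⟩
  obtain ⟨m, hm⟩ := exists_nat_one_div_lt hε
  filter_upwards [hWev (max (max (Encodable.encode j) m) (K j m))] with n hn
  have hle : max (max (Encodable.encode j) m) (K j m) ≤ Nat.findGreatest (fun k => W k n) n :=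
    Nat.le_findGreatest hn.1 hn
  have hspec : W (Nat.findGreatest (fun k => W k n) n) n :=
    Nat.findGreatest_spec (P := fun k => W k n) hn.1 hn
  have h1 : Encodable.encode j ≤ Nat.findGreatest (fun k => W k n) n :=
    le_trans (le_trans (le_max_left _ _) (le_max_left _ _)) hle
  have h2 : m ≤ Nat.findGreatest (fun k => W k n) n :=
    le_trans (le_trans (le_max_right _ _) (le_max_left _ _)) hle
  exact (hspec.2 j h1 m h2 (le_trans (le_max_right _ _) hle)).trans (by linarith)

/-- A map on a dense sequence respecting the relations extends. -/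
theorem exists_extension {D : Type} [CStarAlgebra D] {A : Type} [CStarAlgebra A]
    {ω : Ultrafilter ℕ} {x : ℕ → D} (hx : DenseRange x) {q : ℕ → ℂ} (hq : DenseRange q)
    {a : ℕ → A} (ha : DenseRange a) (θ : ℕ → AOmega A ω)
    (hθ : ∀ r : Rel, ‖r.eval q θ (fun j => emb ω (a j))‖ ≤ ‖r.eval q x 0‖) :
    Nonempty (D →⋆ₐ[ℂ] CentralAlgebra ω A) := by
  have hcen : ∀ i, θ i ∈ central A ω := by
    intro i
    rw [mem_central]
    intro b
    have h0 : ∀ j, emb ω (a j) * θ i = θ i * emb ω (a j) := fun j => by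
      have := hθ (.comm i j)
      simpa [Rel.eval, sub_eq_zero] using this
    have hc : Continuous (emb (A := A) ω) :=
      AddMonoidHomClass.continuous_of_bound (emb (A := A) ω) 1 fun y => by
        simpa using NonUnitalStarAlgHom.norm_apply_le (emb (A := A) ω) y
    exact congrFun (ha.equalizer (hc.fun_mul continuous_const) (continuous_const.fun_mul hc)
      (funext h0)) b
  have hs : ∀ d : D, ∃ s : ℕ → ℕ, Tendsto (fun k => x (s k)) atTop (𝓝 d) := by
    intro d
    obtain ⟨u, hu, hlim⟩ := mem_closure_iff_seq_limit.1 (hx d)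
    choose s hs using hu
    exact ⟨s, by simpa [show (fun k => x (s k)) = u from funext hs] using hlim⟩
  choose s hs using hs
  have hcauchy : ∀ d, ∃ z, Tendsto (fun k => θ (s d k)) atTop (𝓝 z) := by
    intro d
    refine cauchySeq_tendsto_of_complete (Metric.cauchySeq_iff.2 fun ε hε => ?_)
    obtain ⟨N, hN⟩ := Metric.cauchySeq_iff.1 (hs d).cauchySeq ε hε
    refine ⟨N, fun m hm n hn => ?_⟩
    rw [dist_eq_norm]
    refine lt_of_le_of_lt (hθ (.diff (s d m) (s d n))) ?_
    have := hN m hm n hn
    rwa [dist_eq_norm] at this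
  choose Θ hΘ using hcauchy
  have squeeze : ∀ (f : ℕ → Rel) {L : AOmega A ω},
      Tendsto (fun k => (f k).eval q θ (fun j => emb ω (a j))) atTop (𝓝 L) →
      Tendsto (fun k => (f k).eval q x 0) atTop (𝓝 0) → L = 0 := fun f L h1 h2 =>
    norm_le_zero_iff.1 (le_of_tendsto_of_tendsto' h1.norm
      (tendsto_zero_iff_norm_tendsto_zero.1 h2) fun k => hθ (f k))
  have hadd : ∀ d e, Θ (d + e) = Θ d + Θ e := fun d e => by
    refine (sub_eq_zero.1 (squeeze (fun k => .add (s d k) (s e k) (s (d + e) k))
      (((hΘ d).add (hΘ e)).sub (hΘ (d + e))) ?_)).symm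
    simpa [Rel.eval] using ((hs d).add (hs e)).sub (hs (d + e))
  have hmul : ∀ d e, Θ (d * e) = Θ d * Θ e := fun d e => by
    refine (sub_eq_zero.1 (squeeze (fun k => .mul (s d k) (s e k) (s (d * e) k))
      (((hΘ d).mul (hΘ e)).sub (hΘ (d * e))) ?_)).symm
    simpa [Rel.eval] using ((hs d).mul (hs e)).sub (hs (d * e))
  have hstar : ∀ d, Θ (star d) = star (Θ d) := fun d => by
    refine (sub_eq_zero.1 (squeeze (fun k => .adj (s d k) (s (star d) k))
      ((hΘ d).star.sub (hΘ (star d))) ?_)).symm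
    simpa [Rel.eval] using (hs d).star.sub (hs (star d))
  have halg : ∀ c : ℂ, Θ (algebraMap ℂ D c) = algebraMap ℂ (AOmega A ω) c := by
    intro c
    obtain ⟨u, hu, hlim⟩ := mem_closure_iff_seq_limit.1 (hq c)
    choose t ht using hu
    have ht' : Tendsto (fun k => q (t k)) atTop (𝓝 c) := by
      simpa [show (fun k => q (t k)) = u from funext ht] using hlim
    refine sub_eq_zero.1 (squeeze (fun k => .scal (s (algebraMap ℂ D c) k) (t k))
      ((hΘ _).sub (((continuous_algebraMap ℂ (AOmega A ω)).tendsto c).comp ht')) ?_)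
    simpa [Rel.eval] using
      (hs (algebraMap ℂ D c)).sub (((continuous_algebraMap ℂ D).tendsto c).comp ht')
  have hmem : ∀ d, Θ d ∈ central A ω := fun d =>
    isClosed_central.mem_of_tendsto (hΘ d) (Eventually.of_forall fun k => hcen _)
  exact ⟨
    { toFun := fun d => ⟨Θ d, hmem d⟩
      map_one' := Subtype.ext (by simpa using halg 1)
      map_mul' := fun d e => Subtype.ext (hmul d e)
      map_zero' := Subtype.ext (by simpa using halg 0)
      map_add' := fun d e => Subtype.ext (hadd d e)
      commutes' := fun c => Subtype.ext (halg c)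
      map_star' := fun d => Subtype.ext (hstar d) }⟩

/-- Countable saturation: local maps into `F_ω(A)` give one map. -/
theorem localStatement : LocalStatement := by
  intro A D _ _ _ _ ω hω hloc
  classical
  set x : ℕ → D := denseSeq D
  set a : ℕ → A := denseSeq A
  set q : ℕ → ℂ := denseSeq ℂ
  have hk : ∀ k : ℕ, ∃ S : StarSubalgebra ℂ D, IsClosed (S : Set D) ∧
      Nonempty (S →⋆ₐ[ℂ] CentralAlgebra ω A) ∧
      ∃ y : ℕ → S, ∀ i ≤ k, ‖x i - y i‖ ≤ 1 / (k + 1 : ℝ) := by
    intro k
    obtain ⟨S, hS, hρ, hy⟩ := hloc ((Finset.range (k + 1)).image x) (1 / (k + 1 : ℝ))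
      (by positivity)
    have hy' : ∀ i, ∃ y : S, i ≤ k → ‖x i - y‖ ≤ 1 / (k + 1 : ℝ) := fun i => by
      by_cases hi : i ≤ k
      · obtain ⟨y, hyS, hyn⟩ := hy (x i)
          (Finset.mem_image_of_mem x (Finset.mem_range.2 (by omega)))
        exact ⟨⟨y, hyS⟩, fun _ => hyn⟩
      · exact ⟨0, fun h => absurd h hi⟩
    choose y hy using hy'
    exact ⟨S, hS, hρ, y, hy⟩
  choose S hS hρ y hy using hk
  have ρ : ∀ k, S k →⋆ₐ[ℂ] CentralAlgebra ω A := fun k => (hρ k).some
  have hyx : ∀ i, Tendsto (fun k => (y k i : D)) atTop (𝓝 (x i)) := fun i => by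
    refine tendsto_iff_norm_sub_tendsto_zero.2 (squeeze_zero' (Eventually.of_forall fun _ =>
      norm_nonneg _) ?_ tendsto_one_div_add_atTop_nhds_zero_nat)
    filter_upwards [eventually_ge_atTop i] with k hki
    rw [norm_sub_rev]
    exact hy k i hki
  set θk : ℕ → ℕ → AOmega A ω := fun k i => (central A ω).subtype (ρ k (y k i)) with hθk
  have hlift : ∀ k i, ∃ v : ℕ →ᵇ A, cls ω v = θk k i := fun k i => cls_surjective _
  choose v hv using hlift
  set cst : ℕ → ℕ →ᵇ A := fun j => BoundedContinuousFunction.const ℕ (a j) with hcst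
  have hev : ∀ r : Rel, ∀ ε : ℝ, 0 < ε → ∀ᶠ k in atTop, ∀ᶠ n in (ω : Filter ℕ),
      ‖r.eval q (v k) cst n‖ < ‖r.eval q x 0‖ + ε := by
    intro r ε hε
    filter_upwards [(tendsto_eval q hyx r).norm.eventually
      (gt_mem_nhds (lt_add_of_pos_right ‖r.eval q x 0‖ hε))] with k hk
    refine (tendsto_omegaNorm ω (r.eval q (v k) cst)).eventually (gt_mem_nhds ?_)
    rw [← norm_cls, Rel.eval_map]
    have hb : ∀ j, cls ω (cst j) = emb ω (a j) := fun j => rfl
    simp only [hv, hb]
    rw [Rel.eval_eq_zero_right q (θk k) (fun j => emb ω (a j))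
      fun i j => mem_central.1 (ρ k (y k i)).2 (a j)]
    have e : r.eval q (θk k) 0 = (central A ω).subtype (ρ k (r.eval q (y k) 0)) := by
      rw [Rel.eval_map, Rel.eval_map]
      simp only [Pi.zero_apply, map_zero]
      rfl
    have e' : r.eval q (fun i => (y k i : D)) 0 = (S k).subtype (r.eval q (y k) 0) := by
      rw [Rel.eval_map]
      simp only [Pi.zero_apply, map_zero]
      rfl
    rw [e]
    refine lt_of_le_of_lt ?_ hk
    rw [e']
    have : IsClosed (S k : Set D) := hS k
    exact NonUnitalStarAlgHom.norm_apply_le (ρ k) (r.eval q (y k) 0)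
  obtain ⟨κ, hκ⟩ := exists_diag hω (fun (r : Rel) k n => ‖r.eval q (v k) cst n‖)
    (fun r => ‖r.eval q x 0‖) hev
  have hbound : ∀ i n, ‖(if ‖v (κ n) i n‖ ≤ ‖x i‖ + 1 then v (κ n) i n else 0)‖ ≤ ‖x i‖ + 1 := by
    intro i n
    split_ifs with h
    · exact h
    · rw [norm_zero]; positivity
  set w : ℕ → ℕ →ᵇ A := fun i => BoundedContinuousFunction.ofNormedAddCommGroup _
    continuous_of_discreteTopology (‖x i‖ + 1) (hbound i) with hw
  have hw' : ∀ i, ∀ᶠ n in (ω : Filter ℕ), w i n = v (κ n) i n := fun i =>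
    (hκ (.gen i) 1 one_pos).mono fun n hn => if_pos hn.le
  refine exists_extension (denseRange_denseSeq D) (denseRange_denseSeq ℂ) (denseRange_denseSeq A)
    (fun i => cls ω (w i)) fun r => ?_
  have e : r.eval q (fun i => cls ω (w i)) (fun j => emb ω (a j)) = cls ω (r.eval q w cst) := by
    rw [Rel.eval_map]
    rfl
  rw [e, norm_cls]
  refine le_of_forall_pos_le_add fun ε hε => le_of_tendsto (tendsto_omegaNorm ω _) ?_
  have hagree : ∀ᶠ n in (ω : Filter ℕ), r.eval q w cst n = r.eval q (v (κ n)) cst n := by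
    cases r with
    | gen i => exact hw' i
    | diff i j => filter_upwards [hw' i, hw' j] with n h1 h2; simp [Rel.eval, h1, h2]
    | add i j l => filter_upwards [hw' i, hw' j, hw' l] with n h1 h2 h3; simp [Rel.eval, h1, h2, h3]
    | mul i j l => filter_upwards [hw' i, hw' j, hw' l] with n h1 h2 h3; simp [Rel.eval, h1, h2, h3]
    | adj i j => filter_upwards [hw' i, hw' j] with n h1 h2; simp [Rel.eval, h1, h2]
    | scal i j => filter_upwards [hw' i] with n h1; simp [Rel.eval, h1]
    | comm i j => filter_upwards [hw' i] with n h1; simp [Rel.eval, h1]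
  filter_upwards [hagree, hκ r ε hε] with n h1 h2
  rw [h1]
  exact h2.le

end

end Vale.Agent.P101.Bridge
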