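import Vale.Agent.P101.Bridge.Main
import Vale.Agent.P101.KR.DropBridge
import Vale.Agent.P101.KR.Answer

/-!
# P101: the theorem in terms of sequences
-/

open TopologicalSpace

namespace Vale.Agent.P101.Bridge

open Vale.Agent.P101.KR

variable (A : Type) [CStarAlgebra A] [SeparableSpace A] (ω : Ultrafilter ℕ)

/-- Without characters, all `Z_{n,n+1}` relations hold, and conversely. -/
theorem not_hasCharacter_iff_all (hω : (ω : Filter ℕ) ≤ Filter.cofinite) :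
    ¬ Seq.HasCharacter A ω ↔ ∀ n, 2 ≤ n → Seq.HasDropRelations A ω n := by
  refine ⟨fun h n hn => ?_, fun h => (not_hasCharacter_iff A ω hω).2 (h 2 le_rfl)⟩
  haveI : NeZero n := ⟨by omega⟩
  obtain ⟨d⟩ := allDrops_of _ (hasCopies A ω hω) (Seq.noCharacter_of h) n hn
  refine Seq.hasDropRelations_of d.P d.v d.orderZero.star_eq d.orderZero.mul_eq d.orderZero.pos
    d.star_mul_v fun a ha => ?_
  rw [show a = 0 from Fin.ext ha]
  exact d.fix_v

/-- A unital map of `D` into `F_ω(A)` gives an algebra generated by commuting copies. -/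
theorem exists_tensorCompletion {D : Type} [CStarAlgebra D]
    (ψ : D →⋆ₐ[ℂ] CentralAlgebra ω A) :
    ∃ (C : Type) (_ : CStarAlgebra C) (ιA : A →⋆ₐ[ℂ] C) (ιD : D →⋆ₐ[ℂ] C),
      IsTensorCompletion ιA ιD := by
  let f : D →⋆ₐ[ℂ] AOmega A ω := (central A ω).subtype.comp ψ
  set s : Set (AOmega A ω) := Set.range (emb (A := A) ω) ∪ Set.range f with hs
  have hA : ∀ a, emb ω a ∈ Cl s := fun a => subset_Cl s (.inl ⟨a, rfl⟩)
  have hD : ∀ d, f d ∈ Cl s := fun d => subset_Cl s (.inr ⟨d, rfl⟩)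
  refine ⟨Cl s, inferInstance, (emb ω).codRestrict _ hA, f.codRestrict _ hD, ⟨?_, ?_, ?_⟩⟩
  · intro a b h
    have e : emb ω a = emb ω b := congrArg Subtype.val h
    have e2 := cls_eq_iff.1 (e : cls ω (BoundedContinuousFunction.const ℕ a) =
      cls ω (BoundedContinuousFunction.const ℕ b))
    exact sub_eq_zero.1 (norm_eq_zero.1 (tendsto_nhds_unique tendsto_const_nhds e2))
  · exact fun a d => Subtype.ext (mem_central.1 (ψ d).2 a)
  · rw [← top_le_iff]
    rintro ⟨x, hx⟩ -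
    let T := Cl (Set.range ((emb ω).codRestrict (Cl s) hA) ∪ Set.range (f.codRestrict (Cl s) hD))
    have hY : IsClosed ((T.map (Cl s).subtype : StarSubalgebra ℂ (AOmega A ω)) : Set (AOmega A ω)) :=
      (isClosed_Cl s).isClosedEmbedding_subtypeVal.isClosedMap _ (isClosed_Cl _)
    have hsY : s ⊆ (T.map (Cl s).subtype : StarSubalgebra ℂ (AOmega A ω)) := by
      rintro y (⟨a, rfl⟩ | ⟨d, rfl⟩)
      · exact ⟨_, subset_Cl _ (.inl ⟨a, rfl⟩), rfl⟩
      · exact ⟨_, subset_Cl _ (.inr ⟨d, rfl⟩), rfl⟩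
    obtain ⟨b, hb, hba⟩ := Cl_le hY hsY hx
    rwa [show b = ⟨x, hx⟩ from Subtype.ext hba] at hb

/-- The central map from a Jiang-Su algebra. -/
theorem exists_central_map (hω : (ω : Filter ℕ) ≤ Filter.cofinite)
    (h : NoCharacter (CentralAlgebra ω A)) {D : Type} [CStarAlgebra D] (hD : IsJiangSu D) :
    Nonempty (D →⋆ₐ[ℂ] CentralAlgebra ω A) := by
  haveI := hD.separable
  refine localStatement A D ω hω fun G ε hε => ?_
  obtain ⟨n, hne, hn, ι, hι, hG⟩ := hD.locallyDrop G ε hε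
  obtain ⟨d⟩ := allDrops_of _ (hasCopies A ω hω) h n hn
  obtain ⟨f⟩ := dropHom_of n (CentralAlgebra ω A) d
  refine ⟨ι.range, (NonUnitalStarAlgHom.isometry ι hι).isClosedEmbedding.isClosed_range,
    ⟨f.comp (StarAlgEquiv.ofInjective ι hι).symm.toStarAlgHom⟩, fun x hx => ?_⟩
  obtain ⟨y, hy⟩ := hG x hx
  exact ⟨ι y, ⟨y, rfl⟩, hy⟩

/-- The answer to Q1. -/
theorem answer [Nontrivial A] (hω : (ω : Filter ℕ) ≤ Filter.cofinite) :
    (¬ Seq.HasCharacter A ω → ∀ (D : Type) [CStarAlgebra D], IsJiangSu D →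
      (∃ (C : Type) (_ : CStarAlgebra C) (ιA : A →⋆ₐ[ℂ] C) (ιD : D →⋆ₐ[ℂ] C),
        IsTensorCompletion ιA ιD) ∧
      ∀ (C : Type) [CStarAlgebra C] (ιA : A →⋆ₐ[ℂ] C) (ιD : D →⋆ₐ[ℂ] C),
        IsTensorCompletion ιA ιD → Nonempty (A ≃⋆ₐ[ℂ] C)) ∧
    (¬ Seq.HasCharacter A ω ↔ ∀ n, 2 ≤ n → Seq.HasDropRelations A ω n) := by
  refine ⟨fun h D _ hD => ⟨?_, fun C _ ιA ιD hT => ?_⟩, not_hasCharacter_iff_all A ω hω⟩
  · obtain ⟨ψ⟩ := exists_central_map A ω hω (Seq.noCharacter_of h) hD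
    exact exists_tensorCompletion A ω ψ
  · exact stable_of dropHom_of A ω hω (Seq.noCharacter_of h) D hD C ιA ιD hT

end Vale.Agent.P101.Bridge
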