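import Vale.Agent.P101.Bridge.Interfaces

/-!
# P101: approximate intertwining
-/

namespace Vale.Agent.P101.Bridge

open Filter Topology Vale.Agent.P101.KR TopologicalSpace

variable {A C : Type} [CStarAlgebra A] [CStarAlgebra C]

theorem norm_conj_unitary (w : unitary C) (x : C) : ‖(w : C) * x * star (w : C)‖ = ‖x‖ := by
  rw [← Unitary.coe_star, CStarRing.norm_mul_coe_unitary, CStarRing.norm_coe_unitary_mul]

/-- Conjugation by a unitary. -/
def conjHom (w : unitary C) : C →⋆ₐ[ℂ] C where
  toFun x := (w : C) * x * star (w : C)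
  map_one' := by simp
  map_zero' := by simp
  map_mul' x y := by
    have h : star (w : C) * w = 1 := Unitary.coe_star_mul_self w
    calc (w : C) * (x * y) * star (w : C)
        = w * x * (star (w : C) * w) * y * star (w : C) := by rw [h]; noncomm_ring
      _ = _ := by noncomm_ring
  map_add' x y := by noncomm_ring
  commutes' r := by
    rw [← Algebra.commutes, mul_assoc]
    simp
  map_star' x := by simp [star_mul, mul_assoc]

theorem conjHom_apply (w : unitary C) (x : C) : conjHom w x = (w : C) * x * star (w : C) := rfl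

theorem intertwine_of : IntertwineStatement := by
  intro A C _ _ _ _ φ hφ H
  classical
  have hiso : ∀ x, ‖φ x‖ = ‖x‖ := fun x => NonUnitalStarAlgHom.norm_map φ hφ x
  set a : ℕ → A := denseSeq A
  set c : ℕ → C := denseSeq C
  let ε : ℕ → ℝ := fun n => (1 / 2) ^ n
  have hε : ∀ n, 0 < ε n := fun n => by positivity
  -- one step
  have step : ∀ (n : ℕ) (st : unitary C × Finset A), ∃ (z : unitary C) (b : ℕ → A),
      (∀ i ≤ n, ‖(z : C) * φ (a i) - φ (a i) * z‖ ≤ ε n) ∧
      (∀ x ∈ st.2, ‖(z : C) * φ x - φ x * z‖ ≤ ε n) ∧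
      ∀ j ≤ n, ‖conjHom (st.1 * z) (φ (b j)) - c j‖ ≤ ε n := by
    intro n st
    obtain ⟨z, hz1, hz2⟩ := H ((Finset.range (n + 1)).image a ∪ st.2)
      ((Finset.range (n + 1)).image fun j => star (st.1 : C) * c j * st.1) (ε n) (hε n)
    have : ∀ j, ∃ b : A, j ≤ n → ‖conjHom (st.1 * z) (φ b) - c j‖ ≤ ε n := by
      intro j
      by_cases hj : j ≤ n
      · obtain ⟨b, hb⟩ := hz2 _ (Finset.mem_image_of_mem _ (Finset.mem_range.2 (by omega : j < n + 1)))
        refine ⟨b, fun _ => ?_⟩
        rw [norm_sub_rev] at hb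
        refine le_trans (le_of_eq ?_) hb
        rw [← norm_conj_unitary (st.1 * z) (φ b - star (z : C) * (star (st.1 : C) * c j * st.1) * z),
          ← conjHom_apply (st.1 * z) (φ b - _), map_sub]
        have e : conjHom (st.1 * z) (star (z : C) * (star (st.1 : C) * c j * st.1) * z) = c j := by
          rw [conjHom_apply, Submonoid.coe_mul, star_mul]
          have h1 : (z : C) * star (z : C) = 1 := Unitary.coe_mul_star_self z
          have h2 : (st.1 : C) * star (st.1 : C) = 1 := Unitary.coe_mul_star_self st.1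
          calc (st.1 : C) * z * (star (z : C) * (star (st.1 : C) * c j * st.1) * z)
                * (star (z : C) * star (st.1 : C))
              = (st.1 : C) * ((z : C) * star (z : C)) * star (st.1 : C) * c j * st.1
                * ((z : C) * star (z : C)) * star (st.1 : C) := by noncomm_ring
            _ = ((st.1 : C) * star (st.1 : C)) * c j * ((st.1 : C) * star (st.1 : C)) := by
                rw [h1]; noncomm_ring
            _ = c j := by rw [h2]; simp
        rw [e]
      · exact ⟨0, fun h => absurd h hj⟩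
    choose b hb using this
    exact ⟨z, b, fun i hi => hz1 _ (Finset.mem_union_left _
      (Finset.mem_image_of_mem _ (Finset.mem_range.2 (by omega)))),
      fun x hx => hz1 _ (Finset.mem_union_right _ hx), hb⟩
  choose Z B hZa hZS hB using step
  let st : ℕ → unitary C × Finset A := fun n => n.rec (1, ∅) fun k s =>
    (s.1 * Z k s, s.2 ∪ (Finset.range (k + 1)).image (B k s))
  have hst : ∀ n, st (n + 1) = ((st n).1 * Z n (st n),
      (st n).2 ∪ (Finset.range (n + 1)).image (B n (st n))) := fun n => rfl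
  let Ψ : ℕ → A →⋆ₐ[ℂ] C := fun n => (conjHom (st n).1).comp φ
  have hΨn : ∀ n x, ‖Ψ n x‖ = ‖x‖ := fun n x => (norm_conj_unitary _ _).trans (hiso x)
  have hdiff : ∀ n x, ‖Ψ (n + 1) x - Ψ n x‖ = ‖(Z n (st n) : C) * φ x - φ x * Z n (st n)‖ := by
    intro n x
    set z := Z n (st n)
    have e : Ψ (n + 1) x - Ψ n x
        = conjHom (st n).1 (((z : C) * φ x - φ x * z) * star (z : C)) := by
      show conjHom (st (n + 1)).1 (φ x) - conjHom (st n).1 (φ x) = _
      have h1 : (z : C) * star (z : C) = 1 := Unitary.coe_mul_star_self z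
      rw [hst, conjHom_apply, conjHom_apply, conjHom_apply, Submonoid.coe_mul, star_mul,
        sub_mul _ _ (star (z : C)), mul_assoc (φ x) _ (star (z : C)), h1]
      noncomm_ring
    rw [e, conjHom_apply, norm_conj_unitary, ← Unitary.coe_star, CStarRing.norm_mul_coe_unitary]
  have hmono : ∀ n m, n ≤ m → (st n).2 ⊆ (st m).2 := fun n m h => by
    induction h with
    | refl => exact subset_rfl
    | step _ ih => exact ih.trans (by rw [hst]; exact Finset.subset_union_left)
  have hgeo : ∀ (k : ℕ) (x : A), (∀ m, k ≤ m → ‖(Z m (st m) : C) * φ x - φ x * Z m (st m)‖ ≤ ε m) →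
      ∀ m, k ≤ m → ‖Ψ m x - Ψ k x‖ ≤ 2 * ε k - 2 * ε m := by
    intro k x hx m hm
    induction m, hm using Nat.le_induction with
    | base => simp
    | succ m hm ih =>
      refine (norm_sub_le_norm_sub_add_norm_sub _ (Ψ m x) _).trans ?_
      have := (hdiff m x).trans_le (hx m hm)
      have e : ε (m + 1) = ε m / 2 := by simp only [ε, pow_succ]; ring
      linarith
  have hεlim : Tendsto ε atTop (𝓝 0) := tendsto_pow_atTop_nhds_zero_of_lt_one (by norm_num) (by norm_num)
  have hcauchy : ∀ x, CauchySeq fun n => Ψ n x := by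
    intro x
    refine Metric.cauchySeq_iff'.2 fun δ hδ => ?_
    obtain ⟨i, hi⟩ := (denseRange_denseSeq A).exists_dist_lt x (show 0 < δ / 4 by positivity)
    obtain ⟨N, hN⟩ := eventually_atTop.1 ((hεlim.eventually (gt_mem_nhds (show 0 < δ / 4 by positivity))).and
      (eventually_ge_atTop i))
    refine ⟨N, fun m hm => ?_⟩
    have h1 := hgeo N (a i) (fun m' hm' => hZa m' _ i ((hN N le_rfl).2.trans hm')) m hm
    have h2 : ∀ k, ‖Ψ k x - Ψ k (a i)‖ < δ / 4 := fun k => by
      rw [← map_sub, hΨn, ← dist_eq_norm]; exact hi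
    have := hε m
    have := (hN N le_rfl).1
    rw [dist_eq_norm]
    calc ‖Ψ m x - Ψ N x‖ ≤ ‖Ψ m x - Ψ m (a i)‖ + ‖Ψ m (a i) - Ψ N (a i)‖ + ‖Ψ N (a i) - Ψ N x‖ :=
          norm_sub_le_norm_sub_add_norm_sub _ _ _ |>.trans (add_le_add_left
            (norm_sub_le_norm_sub_add_norm_sub _ _ _) _)
      _ < δ := by rw [norm_sub_rev (Ψ N (a i))]; linarith [h2 m, h2 N]
  choose ψ hψ using fun x => cauchySeq_tendsto_of_complete (hcauchy x)
  let Ψlim : A →⋆ₐ[ℂ] C :=
    { toFun := ψ
      map_one' := tendsto_nhds_unique (hψ 1) (by simp)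
      map_zero' := tendsto_nhds_unique (hψ 0) (by simp)
      map_mul' := fun x y => tendsto_nhds_unique (hψ _) (by simpa using (hψ x).mul (hψ y))
      map_add' := fun x y => tendsto_nhds_unique (hψ _) (by simpa using (hψ x).add (hψ y))
      commutes' := fun r => tendsto_nhds_unique (hψ _) (by simp [AlgHomClass.commutes])
      map_star' := fun x => tendsto_nhds_unique (hψ _)
        (((continuous_star.tendsto _).comp (hψ x)).congr fun n => (map_star (Ψ n) x).symm) }
  have hnorm : ∀ x, ‖Ψlim x‖ = ‖x‖ := fun x =>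
    tendsto_nhds_unique (hψ x).norm (by simp [hΨn])
  have hisom : Isometry Ψlim := AddMonoidHomClass.isometry_of_norm _ hnorm
  have hdense : DenseRange Ψlim := by
    intro y
    rw [Metric.mem_closure_iff]
    intro δ hδ
    obtain ⟨j, hj⟩ := (denseRange_denseSeq C).exists_dist_lt y (show 0 < δ / 2 by positivity)
    obtain ⟨n, hjn, hn⟩ := ((eventually_ge_atTop j).and
      (hεlim.eventually (gt_mem_nhds (show 0 < δ / 6 by positivity)))).exists
    set b := B n (st n) j
    refine ⟨Ψlim b, ⟨b, rfl⟩, ?_⟩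
    have hb : b ∈ (st (n + 1)).2 := by
      rw [hst]
      exact Finset.mem_union_right _ (Finset.mem_image_of_mem _ (Finset.mem_range.2 (by omega)))
    have h1 : ‖Ψlim b - Ψ (n + 1) b‖ ≤ 2 * ε (n + 1) :=
      le_of_tendsto ((hψ b).sub_const _).norm (eventually_atTop.2 ⟨n + 1, fun m hm => by
        have := hgeo (n + 1) b (fun m' hm' => hZS m' _ b (hmono _ _ hm' hb)) m hm
        linarith [hε m]⟩)
    have h2 : ‖Ψ (n + 1) b - c j‖ ≤ ε n := by
      have := hB n (st n) j hjn
      simpa [Ψ, hst] using this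
    have e : ε (n + 1) = ε n / 2 := by simp only [ε, pow_succ]; ring
    have h3 := norm_sub_le_norm_sub_add_norm_sub (Ψlim b) (Ψ (n + 1) b) (c j)
    rw [dist_eq_norm] at hj ⊢
    have h4 := norm_sub_le_norm_sub_add_norm_sub y (c j) (Ψlim b)
    rw [norm_sub_rev (c j) (Ψlim b)] at h4
    linarith [hε n]
  have hsurj : Function.Surjective Ψlim := fun y => by
    have := hisom.isClosedEmbedding.isClosed_range.closure_eq ▸ hdense y
    exact this
  exact ⟨StarAlgEquiv.ofBijective Ψlim ⟨hisom.injective, hsurj⟩⟩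

end Vale.Agent.P101.Bridge
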