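import Vale.Agent.P101.Bridge.Absorb
import Vale.Agent.P101.Bridge.Local
import Vale.Agent.P101.Bridge.AllDrops

/-!
# P101: no characters on `F_ω(A)` gives `A ≅ A ⊗ 𝒵`
-/

namespace Vale.Agent.P101.Bridge

open Vale.Agent.P101.KR

theorem stable_of (hHom : DropHomStatement) : StableStatement := by
  intro A _ _ _ ω hω hchar D _ hD C _ ιA ιD hT
  haveI := hD.separable
  refine absorb_of A D C ω hω hD.halfFlip ?_ ιA ιD hT
  refine localStatement A D ω hω fun G ε hε => ?_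
  obtain ⟨n, hne, hn, ι, hι, hG⟩ := hD.locallyDrop G ε hε
  obtain ⟨d⟩ := allDrops_of _ (hasCopies A ω hω) hchar n hn
  obtain ⟨f⟩ := hHom n (CentralAlgebra ω A) d
  refine ⟨ι.range, ?_, ⟨f.comp (StarAlgEquiv.ofInjective ι hι).symm.toStarAlgHom⟩,
    fun x hx => ?_⟩
  · exact (NonUnitalStarAlgHom.isometry ι hι).isClosedEmbedding.isClosed_range
  · obtain ⟨y, hy⟩ := hG x hx
    exact ⟨ι y, ⟨y, rfl⟩, hy⟩

end Vale.Agent.P101.Bridge
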